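import Vale.Agent.P144D.I.LB.D
import Vale.Agent.P144D.I.DefsN2

/-!
The lower bound on the partition function with sign changes.
-/

namespace Vale.Agent.P144Z

open Finset Matrix ILB

theorem ILB.le_sc {L J : ℕ} (hL : 2 ≤ L) : J + 1 ≤ sc L J := by
  have h1 : J < 2 ^ J := Nat.lt_two_pow_self
  have h2 : 2 ^ J ≤ L ^ J := Nat.pow_le_pow_left hL J
  unfold sc
  omega

theorem lbStmt_of2 (hG : GksStmt) (hC : CwStmt) (hW : WickStmt) (hU : GapU) (hT : TwoPt2)
    (hB : TubeStmt) (hP : PathStmt) (hY : CycStmt) : LBStmt := by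
  intro C c hc
  obtain ⟨η, hη, C₁, L₁, hT⟩ := hT c hc
  obtain ⟨C₂, hP⟩ := hP C
  obtain ⟨C₃, hY⟩ := hY C
  obtain ⟨Γ, -, hU⟩ := hU
  refine ⟨η, hη, (C₂ + C₃ + 16) * (C₁ + 1), max L₁ 2, fun L hL => ?_⟩
  obtain ⟨κ, hκ, hT⟩ := hT L ((le_max_left _ _).trans hL)
  refine ⟨min κ (1 / 100), by positivity, fun N => ?_⟩
  obtain ⟨N₂, hP⟩ := hP N
  obtain ⟨N₃, hY⟩ := hY N
  obtain ⟨c₁, hc₁, J₁, hT⟩ := hT (max N₂ N)
  obtain ⟨t, ht, ht', c₂, hc₂, q₀, hB⟩ := hB (max N₃ N)
  set d₁ := min 1 (c₁ / 2) with hd₁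
  set d₂ := min 1 (c₂ / 2) with hd₂
  have p₁ : 0 < d₁ := by positivity
  have p₂ : 0 < d₂ := by positivity
  refine ⟨d₂ ^ N₃ * d₁ ^ N / 2 ^ N, by positivity, J₁ + q₀ + C₂ + C₃, fun J hJ M _ Λ T r H k a hs x
    e u ν n₀ hD hΛ _ _ hcn hH hk hx hr hrT hTN hM hch hn hd => ?_⟩
  have hsc : J + 1 ≤ sc L J := le_sc ((le_max_right _ _).trans hL)
  set q := (C₁ + 1) * sc L J with hq
  have q1 : sc L J ≤ q := Nat.le_mul_of_pos_left _ (Nat.succ_pos _)
  have q2 : C₂ * q + C₃ * q + 16 * q ≤ r := by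
    rw [← add_mul, ← add_mul, hq, ← mul_assoc]
    exact hr
  have q3 : T ≤ N * q := hTN.trans (Nat.mul_le_mul_left _ q1)
  set I := Λ.image (prj M) with hI'
  have hI : ∀ f ∈ I, tdist f 0 ≤ T := fun f hf => by
    obtain ⟨v, hv, rfl⟩ := mem_image.1 hf
    exact (UL.tdist_le v).trans (hΛ v hv)
  have hM' : 4 * (T + 2) ≤ M := by omega
  have hν : ∀ i, 0 < ν i J := fun i => nu_pos (hch i)
  have h0 := Y_pos I
  have h1 := marks_bound (c := d₁) (c' := d₂ ^ N₃) (ν := fun i => ν i J) hG hΛ hM'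
    (fun i => (hx.mk1 i).touch) (fun i j h => by
      by_contra h1
      have := hx.sep i j h1
      rw [h, UL.zd_self] at this
      omega) (fun i => (hν i).le) p₁.le (min_le_left _ _) (by positivity)
    (fun i j hij hpc => ?_) (fun n h1 h2 => ?_) univ n₀ hn (by simpa using hd)
  · rw [← hI'] at h1
    refine le_trans ?_ h1
    have h2 := Zw_le hG hI hM' hcn
    have h3 : 0 ≤ ∏ i, ν i J := prod_nonneg fun i _ => (hν i).le
    have h4 : (2 : ℝ) ^ H ≤ 2 ^ N := pow_le_pow_right₀ one_le_two hH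
    have h5 : d₁ ^ N ≤ d₁ ^ (univ : Finset (Fin k)).card :=
      pow_le_pow_of_le_one p₁.le (min_le_left _ _) (by simpa using hk)
    refine (mul_le_mul_of_nonneg_left (h2.trans (mul_le_mul_of_nonneg_right h4 h0.le))
      (by positivity)).trans (le_trans (le_of_eq (by field_simp)) (mul_le_mul_of_nonneg_right
        (mul_le_mul_of_nonneg_right (mul_le_mul_of_nonneg_left h5 (by positivity)) h3) h0.le))
  · obtain ⟨U, u1, u2, u3, u4⟩ := hP _ Λ T r q (x i) (x j) (e i) (e j) (by positivity)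
      (by linarith [min_le_right κ (1 / 100)]) hD hΛ q3 (by omega) (by omega) hrT (hx.mk1 i)
      (hx.mk1 j) (hx.sep i j hij) hpc M hM
    have u5 : r < tdist (prj M (x i)) (prj M (x j)) := by
      rw [tdist_prj (zd_cn hΛ (hx.mk1 i).touch) (zd_cn hΛ (hx.mk1 j).touch) (by omega)]
      exact hx.sep i j hij
    obtain ⟨n, u6, u7, u8⟩ := path_bound hG hC hW u1 hI u2.conn hM' (fun ψ hψ => by
        have := hU M U T N₂ (by omega) (by omega) u2.box u2.tr ψ
        rw [hψ, dotProduct_zero, mul_zero] at this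
        exact dotProduct_self_eq_zero.1 (le_antisymm this
          (sum_nonneg fun _ _ => mul_self_nonneg _)))
      (s := (prj M (x j), e j + 2)) (s' := (prj M (x i), e i + 2)) (fun h => by
        rw [show prj M (x i) = prj M (x j) from h.symm, tdist_self] at u5
        omega) (mul_pos (mul_pos hc₁ (hν i)) (hν j))
      (hT J (by omega) M U I T q _ _ (e i) (e j) (u i) (u j) (ν i) (ν j)
        (corr_mono u2 (le_max_left _ _)) u1 u3 u4
        (mkT hΛ (by omega) (hx.mk1 i) (min_le_left _ _) (by omega))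
        (mkT hΛ (by omega) (hx.mk1 j) (min_le_left _ _) (by omega))
        (by omega) (Nat.mul_le_mul_right _ (Nat.le_succ _)) (by omega)
        (hTN.trans (Nat.mul_le_mul_right _ (le_max_right _ _))) hM (hch i) (hch j))
    refine ⟨n, u6, u7, le_trans (mul_le_mul_of_nonneg_right ?_ h0.le) u8⟩
    have := mul_le_mul_of_nonneg_right (min_le_right 1 (c₁ / 2)) (mul_pos (hν i) (hν j)).le
    linarith
  · obtain ⟨τ, rfl⟩ := exists_dom hI hM' h2 h1
    obtain ⟨m, hm, W, f, D, σ, u1, u2, u3⟩ := hY Λ T r q hD hΛ q3 (by omega) (by omega) hrT M hM τ h1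
    have u4 := sum_bound (I := I) hG p₂.le (fun j => by
      obtain ⟨v1, v2, v3, v4, v5⟩ := u1 j
      exact cyc_bound hG v2 (by omega) v1 hI hM ht ht' hc₂ (hB q (by omega) M (W j) T (f j)
        ⟨v2.loc, v2.f_le, v2.q_le, corr_mono v2.cor (le_max_left _ _)⟩
        (q3.trans (Nat.mul_le_mul_right _ (le_max_right _ _))) hM) v3 v4 v5) univ
      (fun e => xor (dom τ e) (dom σ e)) fun e => by
        rw [I1.sgn_xor, u3, mul_right_comm, I1.sgn_mul_self, one_mul]
    rw [Y, Y, Yn_shift u2] at u4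
    exact (mul_le_mul_of_nonneg_right (pow_le_pow_of_le_one p₂.le (min_le_left _ _)
      (by simpa using hm)) h0.le).trans u4

theorem lbStmt_of (hG : GksStmt) (hC : CwStmt) (hW : WickStmt) (hU : GapU) (hT : TwoPt)
    (hB : TubeStmt) (hP : PathStmt) (hY : CycStmt) : LBStmt :=
  lbStmt_of2 hG hC hW hU hT.two hB hP hY

end Vale.Agent.P144Z
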