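import Vale.Agent.P144D.I.Defs

/-!
Elementary properties of the contour sums `Yn`.
-/

namespace Vale.Agent.P144Z.ILB

open Finset

variable {M : ℕ}

/-- The spin configuration vanishes outside `I`. -/
def Sup (I : Finset (Tor M)) (σ : Tor M → Bool) : Prop := ∀ u, u ∉ I → σ u = false

/-- All edges of `n` are present. -/
def Pr (I : Finset (Tor M)) (n : Tor M × Fin 2 → Bool) : Prop := ∀ e, n e = true → pwI I e = 1

theorem pw_eq (I : Finset (Tor M)) (e : Tor M × Fin 2) :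
    pwI I e = if e.1 ∈ I ∨ oth e ∈ I then 1 else 0 := if_neg Bool.false_ne_true

theorem pw_one {I : Finset (Tor M)} {e : Tor M × Fin 2} :
    pwI I e = 1 ↔ e.1 ∈ I ∨ oth e ∈ I := by
  rw [pw_eq]
  split_ifs with h <;> simp [h]

theorem pw_ne {I : Finset (Tor M)} {e : Tor M × Fin 2} :
    pwI I e ≠ 0 ↔ e.1 ∈ I ∨ oth e ∈ I := by
  rw [pw_eq]
  split_ifs with h <;> simp [h]

theorem pw_nonneg (I : Finset (Tor M)) (e : Tor M × Fin 2) : 0 ≤ pwI I e := by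
  rw [pw_eq]
  split_ifs <;> norm_num

theorem pw_le (I : Finset (Tor M)) (e : Tor M × Fin 2) : pwI I e ≤ 1 := by
  rw [pw_eq]
  split_ifs <;> norm_num

theorem pw_mono {I I' : Finset (Tor M)} (h : I' ⊆ I) (e : Tor M × Fin 2) :
    pwI I' e ≤ pwI I e := by
  by_cases h1 : e.1 ∈ I' ∨ oth e ∈ I'
  · rw [pw_one.2 h1, pw_one.2 (h1.imp (fun a => h a) fun a => h a)]
  · rw [pw_eq I', if_neg h1]
    exact pw_nonneg I e

theorem Pr.mono {I I' : Finset (Tor M)} (h : I' ⊆ I) {n : Tor M × Fin 2 → Bool} (hn : Pr I' n) :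
    Pr I n := fun e he => pw_one.2 ((pw_one.1 (hn e he)).imp (fun a => h a) fun a => h a)

theorem Pr.xor {I : Finset (Tor M)} {n n' : Tor M × Fin 2 → Bool} (h : Pr I n) (h' : Pr I n') :
    Pr I fun e => xor (n e) (n' e) := by
  intro e he
  cases h1 : n e
  · exact h' e (by simpa [h1] using he)
  · exact h e h1

theorem Sup.mono {I I' : Finset (Tor M)} (h : I' ⊆ I) {σ : Tor M → Bool} (hσ : Sup I' σ) :
    Sup I σ := fun u hu => hσ u fun a => hu (h a)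

theorem Sup.xor {I : Finset (Tor M)} {σ τ : Tor M → Bool} (h : Sup I σ) (h' : Sup I τ) :
    Sup I fun u => xor (σ u) (τ u) := fun u hu => by simp [h u hu, h' u hu]

theorem dom_xor (σ τ : Tor M → Bool) (e : Tor M × Fin 2) :
    dom (fun u => xor (σ u) (τ u)) e = xor (dom σ e) (dom τ e) := by
  simp only [dom, Bool.xor_assoc, Bool.xor_left_comm]

theorem tcw (I : Finset (Tor M)) (e : Tor M × Fin 2) :
    0 ≤ (tc • pwI I) e ∧ (tc • pwI I) e ≤ 1 :=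
  ⟨mul_nonneg H2D.tc_pos.le (pw_nonneg I e),
    mul_le_one₀ H2D.tc_le (pw_nonneg I e) (pw_le I e)⟩

theorem Pr.cst {I : Finset (Tor M)} {σ : Tor M → Bool} (h : Pr I (dom σ)) : DH1.Cst I σ := by
  intro e h1 h2
  rw [← DH1.dom_eq_false, ← Bool.not_eq_true]
  exact fun h3 => (pw_one.1 (h e h3)).elim h1 h2

variable [NeZero M]

theorem wt_smul (A : Gauge M) (x : ℝ) (n : Tor M × Fin 2 → Bool) : wt (x • A) 1 n = wt A x n :=
  prod_congr rfl fun e _ => by rw [Pi.smul_apply, smul_eq_mul, one_mul]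

theorem ne_of_wt {w : Gauge M} {x : ℝ} {n : Tor M × Fin 2 → Bool} (h : wt w x n ≠ 0)
    {e : Tor M × Fin 2} (he : n e = true) : w e ≠ 0 := by
  intro h0
  exact h (prod_eq_zero (mem_univ e) (by simp [he, h0]))

theorem pr_of_wt {I : Finset (Tor M)} {x : ℝ} {n : Tor M × Fin 2 → Bool}
    (h : wt (tc • pwI I) x n ≠ 0) : Pr I n := fun _ he =>
  pw_one.2 (pw_ne.1 (right_ne_zero_of_mul (ne_of_wt h he)))

open Classical in
theorem Yn_eq (I : Finset (Tor M)) (w : Gauge M) (n : Tor M × Fin 2 → Bool) :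
    Yn I w n = ∑ σ ∈ univ.filter (Sup I), wt w 1 fun e => xor (n e) (dom σ e) := by
  unfold Yn
  rw [sum_filter]
  exact sum_congr rfl fun σ _ => if_congr Iff.rfl rfl rfl

variable {I : Finset (Tor M)} {w : Gauge M}

theorem wt_nn (hw : ∀ e, 0 ≤ w e) (n : Tor M × Fin 2 → Bool) : 0 ≤ wt w 1 n :=
  H2D.wt_nonneg hw zero_le_one n

theorem Yn_nonneg (hw : ∀ e, 0 ≤ w e) (n : Tor M × Fin 2 → Bool) : 0 ≤ Yn I w n := by
  rw [Yn_eq]
  exact sum_nonneg fun _ _ => wt_nn hw _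

theorem Yn_pos (hw : ∀ e, 0 ≤ w e) : 0 < Yn I w fun _ => false := by
  classical
  rw [Yn_eq]
  refine sum_pos' (fun _ _ => wt_nn hw _)
    ⟨fun _ => false, mem_filter.2 ⟨mem_univ _, fun _ _ => rfl⟩, ?_⟩
  simp [wt, dom]

theorem Yn_mono (hw : ∀ e, 0 ≤ w e) {I' : Finset (Tor M)} (h : I' ⊆ I)
    (n : Tor M × Fin 2 → Bool) : Yn I' w n ≤ Yn I w n := by
  classical
  rw [Yn_eq, Yn_eq]
  exact sum_le_sum_of_subset_of_nonneg
    (fun σ hσ => mem_filter.2 ⟨mem_univ _, (mem_filter.1 hσ).2.mono h⟩) fun _ _ _ => wt_nn hw _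

theorem Yn_shift {σ : Tor M → Bool} (hσ : Sup I σ) (n : Tor M × Fin 2 → Bool) :
    Yn I w (fun e => xor (n e) (dom σ e)) = Yn I w n := by
  classical
  rw [Yn_eq, Yn_eq]
  refine sum_nbij' (fun τ u => xor (σ u) (τ u)) (fun τ u => xor (σ u) (τ u)) ?_ ?_ ?_ ?_ ?_
  · exact fun τ h => mem_filter.2 ⟨mem_univ _, hσ.xor (mem_filter.1 h).2⟩
  · exact fun τ h => mem_filter.2 ⟨mem_univ _, hσ.xor (mem_filter.1 h).2⟩
  · exact fun τ _ => funext fun u => by simp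
  · exact fun τ _ => funext fun u => by simp
  · intro τ _
    simp only [dom_xor, Bool.xor_assoc]

theorem sum_le_Yn (hw : ∀ e, 0 ≤ w e) (S : Finset (Tor M × Fin 2 → Bool))
    (n : Tor M × Fin 2 → Bool)
    (h : ∀ m ∈ S, wt w 1 m ≠ 0 → ∃ τ, Sup I τ ∧ m = fun e => xor (n e) (dom τ e)) :
    ∑ m ∈ S, wt w 1 m ≤ Yn I w n := by
  classical
  rw [Yn_eq, ← sum_filter_ne_zero S]
  refine le_trans (sum_le_sum_of_subset_of_nonneg (t := (univ.filter (Sup I)).image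
    fun τ e => xor (n e) (dom τ e)) (fun m hm => ?_) fun _ _ _ => wt_nn hw _)
    (sum_image_le_of_nonneg fun _ _ => wt_nn hw _)
  obtain ⟨τ, h1, h2⟩ := h m (mem_filter.1 hm).1 (mem_filter.1 hm).2
  exact mem_image.2 ⟨τ, mem_filter.2 ⟨mem_univ _, h1⟩, h2.symm⟩

theorem sum_dom_le (hw : ∀ e, 0 ≤ w e) (a : Tor M) (S : Finset (Tor M → Bool))
    (n : Tor M × Fin 2 → Bool) (hS : ∀ σ ∈ S, σ a = true)
    (h : ∀ σ ∈ S, wt w 1 (dom σ) ≠ 0 → ∃ τ, Sup I τ ∧ dom σ = fun e => xor (n e) (dom τ e)) :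
    ∑ σ ∈ S, wt w 1 (dom σ) ≤ Yn I w n := by
  classical
  rw [← sum_image (f := fun m => wt w 1 m) (g := dom)]
  · refine sum_le_Yn hw _ n fun m hm h0 => ?_
    obtain ⟨σ, hσ, rfl⟩ := mem_image.1 hm
    exact h σ hσ h0
  · intro σ hσ τ hτ e
    rcases (I1.dom_eq_iff τ σ).1 e with h1 | h1
    · exact h1
    · have h2 := hS σ hσ
      rw [h1] at h2
      simp [hS τ hτ] at h2

theorem Yn_zero_le (hw : ∀ e, 0 ≤ w e) (S : Finset (Tor M → Bool))
    (h : ∀ σ, Sup I σ → wt w 1 (dom σ) ≠ 0 → σ ∈ S) :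
    (Yn I w fun _ => false) ≤ ∑ σ ∈ S, wt w 1 (dom σ) := by
  classical
  rw [Yn_eq, ← sum_filter_ne_zero]
  simp only [Bool.false_xor]
  exact sum_le_sum_of_subset_of_nonneg
    (fun σ hσ => h σ (mem_filter.1 (mem_filter.1 hσ).1).2 (mem_filter.1 hσ).2)
    fun _ _ _ => wt_nn hw _

/-! ### Regions in a box -/

variable {T : ℕ}

theorem ne_half (hI : ∀ f ∈ I, tdist f 0 ≤ T) (hM : 4 * (T + 2) ≤ M) {u : Tor M} (hu : u ∈ I) :
    u.1 ≠ ((M / 2 : ℕ) : ZMod M) ∧ u.2 ≠ ((M / 2 : ℕ) : ZMod M) := by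
  have h := hI u hu
  rw [G.tdist_def, sub_zero, max_le_iff] at h
  rw [← prj_lft u]
  exact ⟨H2D.prj_ne h.1 hM, H2D.prj_ne h.2 hM⟩

theorem edge_half (hI : ∀ f ∈ I, tdist f 0 ≤ T) (hM : 4 * (T + 2) ≤ M) {u : Tor M} :
    (u ∈ I ∨ oth (u, 0) ∈ I → u.1 ≠ ((M / 2 : ℕ) : ZMod M)) ∧
      (u ∈ I ∨ oth (u, 1) ∈ I → u.2 ≠ ((M / 2 : ℕ) : ZMod M)) := by
  refine ⟨fun h => h.elim (fun h => (ne_half hI hM h).1) fun h => ?_,
    fun h => h.elim (fun h => (ne_half hI hM h).2) fun h => ?_⟩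
  · simpa [oth, uv] using (ne_half hI hM h).1
  · simpa [oth, uv] using (ne_half hI hM h).2

theorem sec_mul (hI : ∀ f ∈ I, tdist f 0 ≤ T) (hM : 4 * (T + 2) ≤ M) {P : Gauge M}
    (hP : ∀ e, P e ≠ 0 → e.1 ∈ I ∨ oth e ∈ I) (θ : Bool × Bool) : sec M θ * P = P := by
  funext ⟨u, i⟩
  rw [Pi.mul_apply]
  by_cases h : P (u, i) = 0
  · rw [h, mul_zero]
  · have h1 := hP _ h
    unfold sec
    fin_cases i
    · simp [(edge_half hI hM).1 h1]
    · simp [(edge_half hI hM).2 h1]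

theorem Zw_eq (hI : ∀ f ∈ I, tdist f 0 ≤ T) (hM : 4 * (T + 2) ≤ M) {P : Gauge M}
    (hP : ∀ e, P e ≠ 0 → e.1 ∈ I ∨ oth e ∈ I) :
    Zw par0 P 1 = 1 / 2 * ∑ σ : Tor M → Bool, wt (tc • P) 1 (dom σ) := by
  simp only [wt_smul]
  exact H2D.Zw_eq_one (sec_mul hI hM hP)

theorem exists_dom (hI : ∀ f ∈ I, tdist f 0 ≤ T) (hM : 4 * (T + 2) ≤ M)
    {n : Tor M × Fin 2 → Bool} (he : I1.IsEven n) (hn : Pr I n) : ∃ σ, dom σ = n := by
  have k : ∀ e, ¬ (e.1 ∈ I ∨ oth e ∈ I) → sgn (n e) = 1 := fun e h => by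
    cases h1 : n e
    · rfl
    · exact (h (pw_one.1 (hn e h1))).elim
  refine he.exists_dom ?_ ?_
  · rw [← he.per0_eq ((M / 2 : ℕ) : ZMod M)]
    exact prod_eq_one fun j _ => k _ fun h => (edge_half hI hM).1 h rfl
  · rw [← he.per1_eq ((M / 2 : ℕ) : ZMod M)]
    exact prod_eq_one fun j _ => k _ fun h => (edge_half hI hM).2 h rfl

theorem cst_near {σ : Tor M → Bool} (hσ : DH1.Cst I σ) {u x : Tor M}
    (hu : ∀ f, tdist f u ≤ 1 → f ∉ I) (hx : tdist u x ≤ 1) : σ u = σ x := by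
  have k : ∀ (v : ℤ × ℤ) (i : Fin 2), zd v 0 ≤ 1 → zd (v + uz i) 0 ≤ 1 →
      σ (u + prj M v) = σ (u + prj M (v + uz i)) := fun v i h1 h2 =>
    hσ.conn (Relation.ReflTransGen.single ⟨hu _ ((GeoA.tdist_le_zd u v).trans h1),
      hu _ ((GeoA.tdist_le_zd u _).trans h2), i, Or.inl (by
        rw [G.prj_add, I1.prj_uz, add_assoc])⟩)
  have e : σ u = σ (u + prj M (0, 0)) := by
    rw [show ((0, 0) : ℤ × ℤ) = 0 from rfl, G.prj_zero, add_zero]
  rw [tdist_comm, ← GeoA.zd_lft, DH1.zd_le_iff, abs_le, abs_le] at hx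
  rw [e, ← G.add_prj_lft x u]
  generalize lft (x - u) = v at hx
  obtain ⟨a, b⟩ := v
  obtain ⟨⟨h1, h2⟩, h3, h4⟩ := hx
  dsimp only at h1 h2 h3 h4
  have k0 : σ (u + prj M (0, 0)) = σ (u + prj M (a, 0)) := by
    interval_cases a
    · exact (k (-1, 0) 0 (by decide) (by decide)).symm
    · rfl
    · exact k (0, 0) 0 (by decide) (by decide)
  refine k0.trans ?_
  interval_cases b
  · simpa [uz] using (k (a, -1) 1 (by simp [zd]; omega) (by simp [zd, uz]; omega)).symm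
  · rfl
  · simpa [uz] using k (a, 0) 1 (by simp [zd]; omega) (by simp [zd, uz]; omega)

theorem cst_const (hI : ∀ f ∈ I, tdist f 0 ≤ T) (hc : ConnB I 0 (T + 1) (T + 1))
    {σ : Tor M → Bool} (hσ : DH1.Cst I σ) {u v : Tor M} (hu : u ∉ I) (hv : v ∉ I) :
    σ u = σ v := by
  have k : ∀ n u, tdist u 0 ≤ T + 1 + n → u ∉ I →
      ∃ x, tdist x 0 ≤ T + 1 ∧ x ∉ I ∧ σ u = σ x := by
    intro n
    induction n with
    | zero => exact fun u h1 h2 => ⟨u, h1, h2, rfl⟩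
    | succ n ih =>
      intro u h1 h2
      by_cases h3 : tdist u 0 ≤ T + 1 + n
      · exact ih u h3 h2
      · have h4 : ∀ f, tdist f u ≤ 1 → f ∉ I := fun f hf h => by
          have h5 := hI f h
          have h6 := tdist_triangle u f 0
          rw [tdist_comm u f] at h6
          omega
        obtain ⟨x, h5, h6⟩ := G.exists_closer (n := T + 1 + n) h1
        obtain ⟨y, h7, h8, h9⟩ := ih x h6 (h4 x (tdist_comm u x ▸ h5))
        exact ⟨y, h7, h8, (cst_near hσ h4 h5).trans h9⟩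
  obtain ⟨x, h1, h2, h3⟩ := k (tdist u 0) u (by omega) hu
  obtain ⟨y, h4, h5, h6⟩ := k (tdist v 0) v (by omega) hv
  rw [h3, h6]
  exact hσ.conn (Relation.ReflTransGen.mono (fun _ _ h => h.2.2) _ _ (hc x y h1 h4 h2 h5))

omit [NeZero M] in
theorem sup_of_const {σ : Tor M → Bool} (h : ∀ u v, u ∉ I → v ∉ I → σ u = σ v) :
    ∃ τ, Sup I τ ∧ dom τ = dom σ := by
  by_cases h1 : Sup I σ
  · exact ⟨σ, h1, rfl⟩
  · simp only [Sup, not_forall, Bool.not_eq_false] at h1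
    obtain ⟨u, h2, h3⟩ := h1
    refine ⟨fun x => !σ x, fun v hv => by simp [h v u hv h2, h3], funext fun e => by simp [dom]⟩

theorem exists_sup (hI : ∀ f ∈ I, tdist f 0 ≤ T) (hc : ConnB I 0 (T + 1) (T + 1))
    (hM : 4 * (T + 2) ≤ M) {n : Tor M × Fin 2 → Bool} (he : I1.IsEven n) (hn : Pr I n) :
    ∃ τ, Sup I τ ∧ dom τ = n := by
  obtain ⟨σ, rfl⟩ := exists_dom hI hM he hn
  exact sup_of_const fun u v => cst_const hI hc hn.cst

end Vale.Agent.P144Z.ILB
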