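import Vale.Agent.P144D.I.LB.A

/-!
Lower bounds on the contour sums of paths and of cycles.
-/

namespace Vale.Agent.P144Z.ILB

open Finset Matrix

variable {M : ℕ} [NeZero M] {I : Finset (Tor M)} {T : ℕ}

/-- The contour sum of the critical model. -/
noncomputable abbrev Y (I : Finset (Tor M)) (n : Tor M × Fin 2 → Bool) : ℝ :=
  Yn I (tc • pwI I) n

theorem Y_pos (I : Finset (Tor M)) : 0 < Y I fun _ => false := Yn_pos fun e => (tcw I e).1

theorem Y_nonneg (I : Finset (Tor M)) (n : Tor M × Fin 2 → Bool) : 0 ≤ Y I n :=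
  Yn_nonneg (fun e => (tcw I e).1) n

theorem Y_mul (hG : GksStmt) {n n' : Tor M × Fin 2 → Bool} {c c' : ℝ} (hc' : 0 ≤ c')
    (h : c * Y I (fun _ => false) ≤ Y I n) (h' : c' * Y I (fun _ => false) ≤ Y I n') :
    c * c' * Y I (fun _ => false) ≤ Y I fun e => xor (n e) (n' e) := by
  have h0 := Y_pos I
  refine le_of_mul_le_mul_right (le_trans ?_ ((hG M I _ (tcw I)).2.1 n n')) h0
  refine le_trans (le_of_eq (by ring)) (mul_le_mul h h' (by positivity) (Y_nonneg I n))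

theorem Y_ge (hG : GksStmt) {w : Gauge M} (hw : ∀ e, 0 ≤ w e ∧ w e ≤ (tc • pwI I) e)
    {n : Tor M × Fin 2 → Bool} {c : ℝ} (h : c * Yn I w (fun _ => false) ≤ Yn I w n) :
    c * Y I (fun _ => false) ≤ Y I n := by
  have h0 := Y_pos I
  refine le_of_mul_le_mul_right (le_trans ?_ ((hG M I _ (tcw I)).2.2 w hw n))
    (Yn_pos fun e => (hw e).1)
  exact le_trans (le_of_eq (by ring)) (mul_le_mul_of_nonneg_right h h0.le)

/-- The partition function without strings is at most `2 ^ H` times the one with plus boundary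
condition. -/
theorem Zw_le (hG : GksStmt) (hI : ∀ f ∈ I, tdist f 0 ≤ T) (hM : 4 * (T + 2) ≤ M) {H : ℕ}
    {a : Tor M} {hs : Fin H → Tor M}
    (hc : ∀ u, u ∉ I → OutConn I u a ∨ ∃ i, OutConn I u (hs i)) :
    Zw par0 (pwI I) 1 ≤ 2 ^ H * Y I fun _ => false := by
  classical
  rw [Zw_eq hI hM fun e => pw_ne.1, DH1.sum_flip _ (fun σ => by rw [I1.dom_not]) a, ← mul_assoc,
    one_div_mul_cancel two_ne_zero, one_mul, ← sum_filter,
    ← sum_fiberwise _ fun σ i => σ (hs i)]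
  refine (sum_le_card_nsmul _ _ (Y I fun _ => false) fun c _ => ?_).trans (le_of_eq (by simp))
  set S := (univ.filter fun σ : Tor M → Bool => σ a = true).filter
    fun σ => (fun i => σ (hs i)) = c with hS
  have k : ∀ σ ∈ S, σ a = true := fun σ hσ => (mem_filter.1 (mem_filter.1 hσ).1).2
  by_cases h : ∃ σ ∈ S, wt (tc • pwI I) 1 (dom σ) ≠ 0
  · obtain ⟨σ, h1, h2⟩ := h
    refine (sum_dom_le (fun e => (tcw I e).1) a S (dom σ) k fun τ h3 h4 =>
      ⟨fun u => xor (σ u) (τ u), fun u hu => ?_, funext fun e => by simp [dom_xor]⟩).trans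
      ((hG M I _ (tcw I)).1 _)
    have h5 : σ u = τ u := by
      rcases hc u hu with h6 | ⟨i, h6⟩
      · rw [(pr_of_wt h2).cst.conn h6, (pr_of_wt h4).cst.conn h6, k σ h1, k τ h3]
      · rw [(pr_of_wt h2).cst.conn h6, (pr_of_wt h4).cst.conn h6]
        exact congrFun ((mem_filter.1 h1).2.trans (mem_filter.1 h3).2.symm) i
    simp [h5]
  · rw [sum_eq_zero fun σ hσ => not_not.1 fun h1 => h ⟨σ, hσ, h1⟩]
    exact (Y_pos I).le

omit [NeZero M] in
theorem dgr_xor (n n' : Tor M × Fin 2 → Bool) (x : Tor M) :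
    dgr (fun e => xor (n e) (n' e)) x = dgr n x * dgr n' x := by
  simp only [dgr, I1.sgn_xor]
  ring

omit [NeZero M] in
theorem dgr_cases (n : Tor M × Fin 2 → Bool) (x : Tor M) : dgr n x = 1 ∨ dgr n x = -1 := by
  unfold dgr
  cases n (x, 0) <;> cases n (x, 1) <;> cases n (x - uv M 0, 0) <;> cases n (x - uv M 1, 1) <;>
    simp [sgn]

omit [NeZero M] in
theorem dgr_xor_iff (n n' : Tor M × Fin 2 → Bool) (x : Tor M) :
    dgr (fun e => xor (n e) (n' e)) x = -1 ↔ ¬ (dgr n x = -1 ↔ dgr n' x = -1) := by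
  rw [dgr_xor]
  rcases dgr_cases n x with h | h <;> rcases dgr_cases n' x with h' | h' <;> rw [h, h'] <;>
    norm_num

omit [NeZero M] in
theorem even_of {n : Tor M × Fin 2 → Bool} (h : ∀ x, dgr n x ≠ -1) : I1.IsEven n :=
  fun x => (dgr_cases n x).resolve_right (h x)

/-- A path between two insertions in a region `U` with connected complement. -/
theorem path_bound (hG : GksStmt) (hC : CwStmt) (hW : WickStmt) {U : Finset (Tor M)}
    (hU : U ⊆ I) (hI : ∀ f ∈ I, tdist f 0 ≤ T) (hc : ConnB U 0 (T + 1) (T + 1))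
    (hM : 4 * (T + 2) ≤ M) (hD : ∀ ψ, Dm (pwI U) *ᵥ ψ = 0 → ψ = 0) {s s' : Tor M × Fin 4}
    (hs : s.1 ≠ s'.1) {c : ℝ} (hc0 : 0 < c)
    (hφ : ∀ φ, Dm (pwI U) *ᵥ φ = Pi.single s' 1 → c ≤ |φ s|) :
    ∃ n, Pr I n ∧ (∀ x, dgr n x = -1 ↔ x = s.1 ∨ x = s'.1) ∧
      c / 2 * Y I (fun _ => false) ≤ Y I n := by
  classical
  have hU' : ∀ f ∈ U, tdist f 0 ≤ T := fun f hf => hI f (hU hf)
  obtain ⟨φ, h1⟩ : ∃ φ, Dm (pwI U) *ᵥ φ = Pi.single s' 1 :=
    LinearMap.surjective_of_injective (f := Matrix.toLin' (Dm (pwI U)))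
      ((injective_iff_map_eq_zero _).2 hD) _
  have h2 := hW M _ s s' φ hD h1
  have h3 : Y U (fun _ => false) ≤ 2 * Zw par0 (pwI U) 1 := by
    rw [Zw_eq hU' hM fun e => pw_ne.1, ← mul_assoc, mul_one_div_cancel two_ne_zero, one_mul]
    exact Yn_zero_le (fun e => (tcw U e).1) _ fun _ _ _ => mem_univ _
  have h4 := Y_pos U
  have h5 : c / 2 * Y U (fun _ => false) ≤ |ZJ par0 (pwI U) ![s, s'] 1 1| := by
    rw [h2, abs_of_pos (by linarith : 0 < Zw par0 (pwI U) 1)]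
    nlinarith [hφ φ h1]
  have hi : Function.Injective fun i => (![s, s'] i).1 := by
    intro i j
    fin_cases i <;> fin_cases j <;> simp [hs, hs.symm]
  have hd : ∀ n, cwI ![s, s'] n ≠ 0 → ∀ x, dgr n x = -1 ↔ x = s.1 ∨ x = s'.1 := fun n h x => by
    simpa [Fin.exists_fin_two] using (hC M 2 _ n hi).2 h x
  have e : ZJ par0 (pwI U) ![s, s'] 1 1 = ∑ n ∈ univ.filter fun n => cwI ![s, s'] n ≠ 0,
      cwI ![s, s'] n * wt (tc • pwI U) 1 n := by
    rw [sum_filter_of_ne fun n _ h => left_ne_zero_of_mul h]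
    refine sum_congr rfl fun n _ => ?_
    simp [wt_smul, uint, par0]
  obtain ⟨n, h6, h7⟩ : ∃ n ∈ univ.filter fun n => cwI ![s, s'] n ≠ 0,
      cwI ![s, s'] n * wt (tc • pwI U) 1 n ≠ 0 := by
    refine exists_ne_zero_of_sum_ne_zero (e ▸ abs_pos.1 (lt_of_lt_of_le ?_ h5))
    positivity
  have h8 := pr_of_wt (right_ne_zero_of_mul h7)
  have h9 : |ZJ par0 (pwI U) ![s, s'] 1 1| ≤ Y U n := by
    rw [e]
    refine (abs_sum_le_sum_abs _ _).trans (le_trans (sum_le_sum fun m _ => ?_)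
      (sum_le_Yn (fun e => (tcw U e).1) _ n fun m hm h0 => ?_))
    · rw [abs_mul, abs_of_nonneg (wt_nn (fun e => (tcw U e).1) m)]
      exact mul_le_of_le_one_left (wt_nn (fun e => (tcw U e).1) m) (hC M 2 _ m hi).1
    · obtain ⟨τ, k1, k2⟩ := exists_sup hU' hc hM (even_of fun x => by
        rw [Ne, dgr_xor_iff, hd n (mem_filter.1 h6).2, hd m (mem_filter.1 hm).2]
        simp) (h8.xor (pr_of_wt h0))
      exact ⟨τ, k1, funext fun e => by simp [k2]⟩
  refine ⟨n, h8.mono hU, hd n (mem_filter.1 h6).2, Y_ge hG (w := tc • pwI U) (fun e =>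
    ⟨(tcw U e).1, mul_le_mul_of_nonneg_left (pw_mono hU e) H2D.tc_pos.le⟩) ?_⟩
  refine le_trans (mul_le_mul_of_nonneg_left ?_ (by positivity))
    (h5.trans (h9.trans (Yn_mono (fun e => (tcw U e).1) hU n)))
  refine (Yn_zero_le (fun e => (tcw U e).1) (univ.filter (Sup U)) fun σ h h0 => ?_).trans
    (le_of_eq (by simp [Y, Yn_eq]))
  refine mem_filter.2 ⟨mem_univ _, fun u hu => ?_⟩
  have k : prj M (T + 1, 0) ∉ I := fun k => by
    have := hI _ k
    rw [G.tdist_def, sub_zero, lft_prj (by rw [Int.abs_eq_natAbs]; omega)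
      (by simp; omega)] at this
    omega
  rw [cst_const hU' hc (pr_of_wt h0).cst hu fun a => k (hU a), h _ k]

end Vale.Agent.P144Z.ILB
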