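import Vale.Agent.P144D.I.LB.B

/-!
Cycles in tubes and closed contours.
-/

namespace Vale.Agent.P144Z.ILB

open Finset Matrix

variable {M : ℕ} [NeZero M] {I W : Finset (Tor M)} {T q N : ℕ} {f : Tor M}

omit [NeZero M] in
theorem cut_dom (f : Tor M) {m : ℕ} (hm : 2 * (m + 1) < M) (σ : Tor M → Bool) :
    ∏ e ∈ cutE f m, sgn (dom σ e) = sgn (σ f) * sgn (σ (f + prj M (((m + 1 : ℕ) : ℤ), 0))) := by
  unfold cutE
  rw [prod_image fun i hi j hj e => ?_]
  · generalize m + 1 = k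
    induction k with
    | zero =>
      rw [show (((0 : ℕ) : ℤ), (0 : ℤ)) = 0 from rfl, G.prj_zero, add_zero, I1.sgn_mul_self]
      simp
    | succ k ih =>
      have e : f + prj M (((k + 1 : ℕ) : ℤ), 0) - uv M 0 = f + prj M ((k : ℤ), 0) := by
        rw [G.uv_zero, add_sub_assoc, ← G.prj_sub]
        simp
      rw [prod_Icc_succ_top (by omega), ih]
      unfold dom
      simp only [one_ne_zero, if_false, I1.sgn_xor, e]
      linear_combination sgn (σ f) * sgn (σ (f + prj M (((k + 1 : ℕ) : ℤ), 0))) *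
        I1.sgn_mul_self (σ (f + prj M ((k : ℤ), 0)))
  · simp only [coe_Icc, Set.mem_Icc] at hi hj
    have := DH1.prj_inj (K := m + 1) (by simp [zd]; omega) (by simp [zd]; omega) hm
      (add_left_cancel (Prod.ext_iff.1 e).1)
    simpa using this

omit [NeZero M] in
theorem Tube.cut (h : Tube W T q N f) (hq : 1 ≤ q) {e : Tor M × Fin 2}
    (he : e ∈ cutE f (64 * q)) : e.1 ∈ W ∨ oth e ∈ W := by
  obtain ⟨i, hi, rfl⟩ := mem_image.1 he
  rw [mem_Icc] at hi
  by_cases h1 : i ≤ 64 * q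
  · exact Or.inl ((h.loc _ (by simp [zd]; omega)).2 (by dsimp only; omega))
  · have e : oth (f + prj M ((i : ℤ), 0), 1) = f + prj M ((i : ℤ) - 1, 0) := by
      simp [oth, uv, prj, add_sub_assoc]
    rw [e]
    exact Or.inr ((h.loc _ (by simp [zd]; omega)).2 (by dsimp only; omega))

theorem Tube.parity (h : Tube W T q N f) (hM : 64 * T ≤ M) {σ : Tor M → Bool}
    (hσ : Pr W (dom σ)) (hp : ∏ e ∈ cutE f (64 * q), sgn (dom σ e) = 1) (hq : 1 ≤ q) :
    ∃ τ, Sup W τ ∧ dom τ = dom σ := by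
  classical
  have hT := h.q_le
  rw [cut_dom f (by omega)] at hp
  have h1 : σ (f + prj M (((64 * q + 1 : ℕ) : ℤ), 0)) = σ f := by
    revert hp
    cases σ f <;> cases σ (f + prj M (((64 * q + 1 : ℕ) : ℤ), 0)) <;> simp [sgn] <;> norm_num
  have h2 : ∀ u ∈ row f (64 * q), u ∈ W := fun u hu => by
    obtain ⟨i, hi, rfl⟩ := mem_image.1 hu
    rw [mem_Icc] at hi
    exact (h.loc _ (by simp [zd]; omega)).2 (by dsimp only; omega)
  have h3 : ∀ u ∈ row f (64 * q), ∀ v : ℤ × ℤ, v.1.natAbs + v.2.natAbs ≤ 1 →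
      u + prj M v ∉ W → σ (u + prj M v) = σ f := fun u hu v hv h4 => by
    obtain ⟨i, hi, rfl⟩ := mem_image.1 hu
    rw [mem_Icc] at hi
    rw [add_assoc, ← G.prj_add] at h4 ⊢
    rw [h.loc _ (by simp [zd]; omega)] at h4
    simp only [Prod.fst_add] at h4
    by_cases h5 : (i : ℤ) + v.1 = 0
    · rw [show ((i : ℤ), (0 : ℤ)) + v = 0 from Prod.ext h5 (by simp; omega), G.prj_zero, add_zero]
    · rw [show ((i : ℤ), (0 : ℤ)) + v = (((64 * q + 1 : ℕ) : ℤ), 0) from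
        Prod.ext (by simp; omega) (by simp; omega), h1]
  have h4 : DH1.Cst (W \ row f (64 * q)) fun u => if u ∈ row f (64 * q) then σ f else σ u := by
    intro e k1 k2
    rw [mem_sdiff, not_and, not_not] at k1 k2
    have e1 : oth e = e.1 + prj M (-uz (if e.2 = 0 then 1 else 0)) := by
      rw [oth, ← I1.prj_uz, sub_eq_add_neg]
      simp [prj]
    have e2 : e.1 = oth e + prj M (uz (if e.2 = 0 then 1 else 0)) := by
      rw [oth, I1.prj_uz, sub_add_cancel]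
    dsimp only
    split_ifs with k3 k4 k4
    · rfl
    · rw [e1] at k2 k4 ⊢
      exact (h3 _ k3 _ (by split_ifs <;> simp [uz]) fun a => k4 (k2 a)).symm
    · rw [e2] at k1 k3 ⊢
      exact h3 _ k4 _ (by split_ifs <;> simp [uz]) fun a => k3 (k1 a)
    · exact hσ.cst e (fun a => k3 (k1 a)) fun a => k4 (k2 a)
  refine sup_of_const fun u v hu hv => ?_
  have := cst_const h.cor.box h.cor.conn h4 (fun a => hu (mem_sdiff.1 a).1)
    fun a => hv (mem_sdiff.1 a).1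
  rwa [if_neg fun a => hu (h2 u a), if_neg fun a => hv (h2 v a)] at this

theorem wt_neg (W : Finset (Tor M)) (f : Tor M) (m : ℕ) (t : ℝ) (n : Tor M × Fin 2 → Bool) :
    wt (tc • cutG W f m (-t)) 1 n = (∏ e ∈ cutE f m, sgn (n e)) * wt (tc • cutG W f m t) 1 n := by
  rw [← prod_ite_mem_eq, wt, wt, ← prod_mul_distrib]
  refine prod_congr rfl fun e _ => ?_
  by_cases h : e ∈ cutE f m <;> cases h1 : n e <;> simp [cutG, h, sgn]

/-- A cycle that winds around a tube. -/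
theorem cyc_bound (hG : GksStmt) (h : Tube W T q N f) (hq : 1 ≤ q) (hW : W ⊆ I)
    (hI : ∀ f ∈ I, tdist f 0 ≤ T) (hM : 64 * T ≤ M) {t c : ℝ} (ht : 0 < t) (ht' : t ≤ 1)
    (hc : 0 < c)
    (hZ : c * (Zw par0 (cutG W f (64 * q) t) 1 + Zw par0 (cutG W f (64 * q) (-t)) 1) ≤
      Zw par0 (cutG W f (64 * q) t) 1 - Zw par0 (cutG W f (64 * q) (-t)) 1)
    {C : Tor M × Fin 2 → Bool} (hC : I1.IsEven C) (hC' : Pr W C)
    (hp : ∏ e ∈ cutE f (64 * q), sgn (C e) = -1) :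
    min 1 (c / 2) * Y I (fun _ => false) ≤ Y I C := by
  classical
  have hT := h.q_le
  have hM' : 4 * (T + 2) ≤ M := by omega
  have hW' : ∀ f ∈ W, tdist f 0 ≤ T := fun f hf => hI f (hW hf)
  have h0 := Y_pos I
  have k0 : ∀ s e, cutG W f (64 * q) s e ≠ 0 → e.1 ∈ W ∨ oth e ∈ W := fun s e he => by
    unfold cutG at he
    split_ifs at he with h1
    · exact Tube.cut h hq h1
    · exact pw_ne.1 he
  have k1 : ∀ σ, Pr W (dom σ) → ∏ e ∈ cutE f (64 * q), sgn (dom σ e) = -1 →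
      ∃ τ, Sup W τ ∧ dom σ = fun e => xor (C e) (dom τ e) := fun σ h1 h2 => by
    obtain ⟨ρ, h3⟩ := exists_dom hW' hM' (hC.xor (I1.isEven_dom σ)) (hC'.xor h1)
    obtain ⟨τ, h4, h5⟩ := Tube.parity h hM (σ := ρ) (h3 ▸ hC'.xor h1) (by
      simp only [h3, I1.sgn_xor, prod_mul_distrib, hp, h2]
      norm_num) hq
    exact ⟨τ, h4, funext fun e => by simp [h5, h3]⟩
  by_cases hA : ∃ σ, Sup I σ ∧ Pr W (dom σ) ∧ ∏ e ∈ cutE f (64 * q), sgn (dom σ e) = -1
  · obtain ⟨σ, h1, h2, h3⟩ := hA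
    obtain ⟨τ, h4, h5⟩ := k1 σ h2 h3
    have h6 := Yn_shift (w := tc • pwI I) h1 fun _ => false
    simp only [Bool.false_xor] at h6
    rw [Y, Y, ← Yn_shift (h4.mono hW) C, ← h5, ← h6]
    exact mul_le_of_le_one_left (Y_nonneg I _) (min_le_left _ _)
  refine (mul_le_mul_of_nonneg_right (min_le_right _ _) h0.le).trans ?_
  set w := tc • cutG W f (64 * q) t with hw
  have k2 : ∀ e, 0 ≤ w e ∧ w e ≤ (tc • pwI I) e := fun e => by
    have : 0 ≤ cutG W f (64 * q) t e ∧ cutG W f (64 * q) t e ≤ pwI W e := by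
      unfold cutG
      split_ifs with h1
      · exact ⟨ht.le, ht'.trans (pw_one.2 (Tube.cut h hq h1)).ge⟩
      · exact ⟨pw_nonneg W e, le_rfl⟩
    exact ⟨mul_nonneg H2D.tc_pos.le this.1,
      mul_le_mul_of_nonneg_left (this.2.trans (pw_mono hW e)) H2D.tc_pos.le⟩
  have k3 : ∀ n, wt w 1 n ≠ 0 → Pr W n := fun n hn e he =>
    pw_one.2 (k0 t e (right_ne_zero_of_mul (ne_of_wt hn he)))
  set p : (Tor M → Bool) → Prop := fun σ => ∏ e ∈ cutE f (64 * q), sgn (dom σ e) = -1 with hp'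
  have k4 : ∀ σ, (∏ e ∈ cutE f (64 * q), sgn (dom σ e)) = if p σ then -1 else 1 := fun σ => by
    split_ifs with h1
    · exact h1
    · exact (I1.prod_sgn_cases _ _).resolve_right h1
  have k5 : ∑ σ, wt w 1 (dom σ) = ∑ σ ∈ univ.filter p, wt w 1 (dom σ) +
      ∑ σ ∈ univ.filter fun σ => ¬ p σ, wt w 1 (dom σ) := (sum_filter_add_sum_filter_not _ _ _).symm
  have k6 : ∑ σ, wt (tc • cutG W f (64 * q) (-t)) 1 (dom σ) =
      -∑ σ ∈ univ.filter p, wt w 1 (dom σ) +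
        ∑ σ ∈ univ.filter fun σ => ¬ p σ, wt w 1 (dom σ) := by
    simp only [wt_neg, k4, ite_mul, neg_mul, one_mul]
    rw [sum_ite, sum_neg_distrib]
  rw [Zw_eq hW' hM' (k0 t), Zw_eq hW' hM' (k0 (-t)), k5, k6] at hZ
  have k7 := Yn_zero_le (I := I) (fun e => (k2 e).1) (univ.filter fun σ => ¬ p σ)
    fun σ h1 h2 => mem_filter.2 ⟨mem_univ _, fun h3 => hA ⟨σ, h1, k3 _ h2, h3⟩⟩
  have k8 : ∑ σ ∈ univ.filter p, wt w 1 (dom σ) ≤ 2 * Yn I w C := by
    rw [sum_filter, DH1.sum_flip _ (fun σ => by simp only [I1.dom_not]) 0, ← sum_filter,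
      ← sum_filter]
    refine mul_le_mul_of_nonneg_left (sum_dom_le (fun e => (k2 e).1) 0 _ C
      (fun σ hσ => (mem_filter.1 (mem_filter.1 hσ).1).2) fun σ h1 h2 => ?_) zero_le_two
    obtain ⟨τ, h3, h4⟩ := k1 σ (k3 _ h2) (mem_filter.1 h1).2
    exact ⟨τ, h3.mono hW, h4⟩
  refine Y_ge hG k2 ?_
  nlinarith

/-- Sums of cycles. -/
theorem sum_bound (hG : GksStmt) {ι : Type} [DecidableEq ι] {C : ι → Tor M × Fin 2 → Bool}
    {c : ℝ} (hc : 0 ≤ c) (h : ∀ j, c * Y I (fun _ => false) ≤ Y I (C j)) (S : Finset ι) :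
    ∀ n : Tor M × Fin 2 → Bool, (∀ e, sgn (n e) = ∏ j ∈ S, sgn (C j e)) →
      c ^ S.card * Y I (fun _ => false) ≤ Y I n := by
  induction S using Finset.induction_on with
  | empty =>
    intro n hn
    obtain rfl : n = fun _ => false := funext fun e => I1.sgn_inj (hn e)
    simp
  | insert j S hj ih =>
    intro n hn
    have h1 := Y_mul hG hc (ih (fun e => xor (n e) (C j e)) fun e => by
      rw [I1.sgn_xor, hn, prod_insert hj, mul_right_comm, I1.sgn_mul_self, one_mul]) (h j)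
    simpa [card_insert_of_notMem hj, pow_succ] using h1

end Vale.Agent.P144Z.ILB
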