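import Vale.Agent.P144D.I.LB.C

/-!
The handshake lemma, the induction on the marked vertices and conversions to the torus.
-/

namespace Vale.Agent.P144Z.ILB

open Finset Matrix

variable {M : ℕ} [NeZero M] {T : ℕ} {Λ : Finset (ℤ × ℤ)}

theorem prod_dgr (K : Finset (Tor M)) {n : Tor M × Fin 2 → Bool}
    (h : ∀ y d, n (y, d) = true → (y + uv M d ∈ K ↔ y ∈ K)) : ∏ v ∈ K, dgr n v = 1 := by
  have k : ∀ d, ∏ v ∈ K, sgn (n (v - uv M d, d)) = ∏ v ∈ K, sgn (n (v, d)) := fun d => by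
    rw [← prod_ite_mem_eq K, ← prod_ite_mem_eq K fun v => sgn (n (v, d)),
      ← Equiv.prod_comp (Equiv.addRight (uv M d))]
    refine prod_congr rfl fun y _ => ?_
    rw [Equiv.coe_addRight, add_sub_cancel_right]
    cases h1 : n (y, d)
    · simp [sgn]
    · exact if_congr (h y d h1) rfl rfl
  simp only [dgr, prod_mul_distrib, k]
  rcases I1.prod_sgn_cases K fun v => n (v, 0) with a | a <;>
    rcases I1.prod_sgn_cases K fun v => n (v, 1) with b | b <;> rw [a, b] <;> norm_num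

theorem zd_cn (hΛ : ∀ v ∈ Λ, zd v 0 ≤ T) {v : ℤ × ℤ} (h : Touch Λ v) : zd v 0 ≤ T + 1 := by
  obtain ⟨k, h⟩ := h
  have := hΛ _ h
  fin_cases k <;> simp [zd, cn] at this ⊢ <;> omega

omit [NeZero M] in
theorem mem_sub (hΛ : ∀ v ∈ Λ, zd v 0 ≤ T) (hM : 4 * (T + 2) ≤ M) {v : ℤ × ℤ}
    (hv : zd v 0 ≤ T + 1) (k : Fin 4) :
    prj M v - prj M (cn k) ∈ Λ.image (prj M) ↔ v - cn k ∈ Λ := by
  rw [← G.prj_sub]
  refine DH1.mem_image_iff (K := T + 2) (fun x hx => (hΛ x hx).trans (by omega)) (by omega) ?_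
  fin_cases k <;> simp [zd, cn] at hv ⊢ <;> omega

theorem step_touch {v : ℤ × ℤ} {a : Fin 4} (h : ¬ RemE Λ v a) : Touch Λ (v + st4 a) := by
  rw [RemE, not_and_or, not_not, not_not] at h
  have k : ∀ a : Fin 4, (∃ k, st4 a - cn k = -cn (a - 1)) ∧ ∃ k, st4 a - cn k = -cn a := by decide
  rcases h with h | h
  · obtain ⟨j, e⟩ := (k a).1
    exact ⟨j, by rwa [add_sub_assoc, e, ← sub_eq_add_neg]⟩
  · obtain ⟨j, e⟩ := (k a).2
    exact ⟨j, by rwa [add_sub_assoc, e, ← sub_eq_add_neg]⟩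

/-- The handshake lemma. -/
theorem handshake (hΛ : ∀ v ∈ Λ, zd v 0 ≤ T) (hM : 4 * (T + 2) ≤ M) {n : Tor M × Fin 2 → Bool}
    (hn : Pr (Λ.image (prj M)) n) {x : ℤ × ℤ} (hx : Touch Λ x) (hd : dgr n (prj M x) = -1) :
    ∃ y, y ≠ x ∧ Touch Λ y ∧ PrConn Λ x y ∧ dgr n (prj M y) = -1 := by
  classical
  set K : Finset (Tor M) := univ.filter fun v => ∃ u, Touch Λ u ∧ PrConn Λ x u ∧ v = prj M u
    with hK
  have k : ∀ u a, Touch Λ u → PrConn Λ x u → (prj M u - prj M (cn (a - 1)) ∈ Λ.image (prj M) ∨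
      prj M u - prj M (cn a) ∈ Λ.image (prj M)) → prj M u + prj M (st4 a) ∈ K := by
    intro u a h1 h2 h3
    rw [mem_sub hΛ hM (zd_cn hΛ h1), mem_sub hΛ hM (zd_cn hΛ h1)] at h3
    have h4 : ¬ RemE Λ u a := fun h => h3.elim h.1 h.2
    exact mem_filter.2 ⟨mem_univ _, u + st4 a, step_touch h4, h2.tail ⟨a, rfl, h4⟩,
      (G.prj_add _ _).symm⟩
  have h1 := prod_dgr K (n := n) fun y d h => by
    have h2 := pw_one.1 (hn _ h)
    constructor
    · intro h3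
      obtain ⟨u, h4, h5, h6⟩ := (mem_filter.1 h3).2
      obtain rfl := eq_sub_of_add_eq h6
      fin_cases d
      · simpa [st4, uv, prj, sub_eq_add_neg] using k u 2 h4 h5
          (by simpa [oth, cn, uv, prj, sub_sub] using h2)
      · simpa [st4, uv, prj, sub_eq_add_neg] using k u 3 h4 h5
          (by simpa [oth, cn, uv, prj, sub_sub] using h2.symm)
    · intro h3
      obtain ⟨u, h4, h5, rfl⟩ := (mem_filter.1 h3).2
      fin_cases d
      · simpa [st4, uv, prj] using k u 0 h4 h5 (by simpa [oth, cn, uv, prj] using h2.symm)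
      · simpa [st4, uv, prj] using k u 1 h4 h5 (by simpa [oth, cn, uv, prj] using h2)
  by_contra h2
  rw [prod_eq_single (prj M x), hd] at h1
  · norm_num at h1
  · intro v hv h3
    obtain ⟨u, h4, h5, rfl⟩ := (mem_filter.1 hv).2
    exact (dgr_cases n _).resolve_right fun h6 => h2 ⟨u, fun e => h3 (by rw [e]), h4, h5, h6⟩
  · exact fun h => (h (mem_filter.2 ⟨mem_univ _, x, hx, Relation.ReflTransGen.refl, rfl⟩)).elim

/-- The induction on the set of marked vertices. -/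
theorem marks_bound (hG : GksStmt) (hΛ : ∀ v ∈ Λ, zd v 0 ≤ T) (hM : 4 * (T + 2) ≤ M) {k : ℕ}
    {x : Fin k → ℤ × ℤ} (hx : ∀ i, Touch Λ (x i)) (hi : Function.Injective x) {ν : Fin k → ℝ}
    (hν : ∀ i, 0 ≤ ν i) {c c' : ℝ} (hc : 0 ≤ c) (hc1 : c ≤ 1) (hc' : 0 ≤ c')
    (h1 : ∀ i j, i ≠ j → PrConn Λ (x i) (x j) → ∃ n, Pr (Λ.image (prj M)) n ∧
      (∀ v, dgr n v = -1 ↔ v = prj M (x j) ∨ v = prj M (x i)) ∧
        c * ν i * ν j * Y (Λ.image (prj M)) (fun _ => false) ≤ Y (Λ.image (prj M)) n)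
    (h2 : ∀ n, Pr (Λ.image (prj M)) n → I1.IsEven n →
      c' * Y (Λ.image (prj M)) (fun _ => false) ≤ Y (Λ.image (prj M)) n) (S : Finset (Fin k)) :
    ∀ n, Pr (Λ.image (prj M)) n → (∀ v, dgr n v = -1 ↔ ∃ i ∈ S, v = prj M (x i)) →
      c' * c ^ S.card * (∏ i ∈ S, ν i) * Y (Λ.image (prj M)) (fun _ => false) ≤
        Y (Λ.image (prj M)) n := by
  have hp : ∀ {u v}, Touch Λ u → Touch Λ v → prj M u = prj M v → u = v := fun hu hv =>
    DH1.prj_inj (zd_cn hΛ hu) (zd_cn hΛ hv) (by omega)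
  have hp' : ∀ i j, prj M (x i) = prj M (x j) ↔ i = j := fun i j =>
    ⟨fun e => hi (hp (hx i) (hx j) e), fun e => by rw [e]⟩
  induction S using Finset.strongInduction with
  | H S ih =>
    intro n hn hd
    rcases S.eq_empty_or_nonempty with rfl | ⟨i, hiS⟩
    · simpa using h2 n hn (even_of fun v => by simp [hd])
    obtain ⟨y, k1, k2, k3, k4⟩ := handshake hΛ hM hn (hx i) ((hd _).2 ⟨i, hiS, rfl⟩)
    obtain ⟨j, hjS, k5⟩ := (hd _).1 k4
    obtain rfl := hp k2 (hx j) k5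
    have hij : i ≠ j := fun e => k1 (by rw [e])
    obtain ⟨m, l1, l2, l3⟩ := h1 i j hij k3
    have hj' : j ∈ S.erase i := mem_erase.2 ⟨hij.symm, hjS⟩
    have l4 := ih ((S.erase i).erase j) ((erase_subset _ _).trans_ssubset (erase_ssubset hiS))
      (fun e => xor (n e) (m e)) (hn.xor l1) fun v => by
        rw [dgr_xor_iff, hd, l2]
        constructor
        · intro h
          by_cases h3 : v = prj M (x j) ∨ v = prj M (x i)
          · exact (h (iff_of_true (h3.elim (fun e => ⟨j, hjS, e⟩) fun e => ⟨i, hiS, e⟩) h3)).elim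
          · obtain ⟨l, h4, rfl⟩ : ∃ l ∈ S, v = prj M (x l) := by tauto
            simp only [hp', not_or] at h3
            exact ⟨l, mem_erase.2 ⟨h3.1, mem_erase.2 ⟨h3.2, h4⟩⟩, rfl⟩
        · rintro ⟨l, h3, rfl⟩ h4
          simp only [mem_erase] at h3
          have := h4.1 ⟨l, h3.2.2, rfl⟩
          simp only [hp'] at this
          tauto
    have h0 := Y_pos (Λ.image (prj M))
    have hP : 0 ≤ ∏ l ∈ (S.erase i).erase j, ν l := prod_nonneg fun l _ => hν l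
    have hi0 := hν i
    have hj0 := hν j
    have l5 := Y_mul hG (by positivity) l4 l3
    simp only [Bool.xor_assoc, Bool.xor_self, Bool.xor_false] at l5
    refine le_trans (mul_le_mul_of_nonneg_right ?_ h0.le) l5
    rw [← mul_prod_erase S ν hiS, ← mul_prod_erase _ ν hj', ← card_erase_add_one hiS,
      ← card_erase_add_one hj', pow_succ, pow_succ]
    refine le_trans (le_of_eq ?_) ((mul_le_of_le_one_left (by positivity) hc1))
    ring

omit [NeZero M] in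
theorem mkT (hΛ : ∀ v ∈ Λ, zd v 0 ≤ T) {κ κ' : ℝ} {r r' : ℕ} (hM : 4 * (T + 2) + 2 * r' ≤ M)
    {x : ℤ × ℤ} {e : Fin 4} (h : MkZ Λ κ r x e) (hκ : κ ≤ κ') (hr : r' ≤ r) :
    MkT (Λ.image (prj M)) κ' r' (prj M x) e := by
  have h1 := zd_cn hΛ h.touch
  obtain ⟨S, ν, h2, h3, h4, h5⟩ := h.cone
  refine ⟨⟨S, ν, h2, GeoA.epi_mono h3 hκ, h4, fun v hv => ?_⟩, ?_, ?_⟩
  · rw [← h5 v (hv.trans hr), ← G.prj_add]
    refine DH1.mem_image_iff (K := T + 1 + r') (fun x hx => (hΛ x hx).trans (by omega))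
      (by omega) ?_
    simp only [zd, Prod.fst_add, Prod.snd_add, Prod.fst_zero, Prod.snd_zero] at h1 hv ⊢
    omega
  · rw [mem_sub hΛ (by omega) h1, mem_sub hΛ (by omega) h1,
      show e + 1 = e + 2 - 1 by fin_cases e <;> rfl]
    exact h.rem
  · obtain ⟨k, hk⟩ := h.touch
    exact ⟨k, (mem_sub hΛ (by omega) h1 k).2 hk⟩

theorem tdist_prj {u v : ℤ × ℤ} (hu : zd u 0 ≤ T) (hv : zd v 0 ≤ T) (hM : 4 * T < M) :
    tdist (prj M u) (prj M v) = zd u v := by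
  rw [DH1.zd_le_iff, abs_le, abs_le] at hu hv
  rw [G.tdist_def, ← G.prj_sub, lft_prj]
  · rfl
  · rw [Prod.fst_sub, Int.abs_eq_natAbs]
    omega
  · rw [Prod.snd_sub, Int.abs_eq_natAbs]
    omega

omit [NeZero M] in
theorem corr_mono {U : Finset (Tor M)} {q N N' : ℕ} {p p' : Tor M} (h : Corr U T q N p p')
    (hN : N ≤ N') : Corr U T q N' p p' := by
  obtain ⟨Hs, Vs, h1, h2, h3⟩ := h.tr
  obtain ⟨n, h4, h5⟩ := h.chain
  exact ⟨h.box, h.conn, ⟨Hs, Vs, h1, fun t => (h2 t).trans hN, fun t => (h3 t).trans hN⟩, n,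
    h4.trans hN, h5⟩

theorem nu_pos {A : Gauge M} {L J : ℕ} {s : Tor M × Fin 4} {u : ℕ → Tor M × Fin 4 → ℝ}
    {ν : ℕ → ℝ} {c η : ℝ} (h : MkCh A L J s u ν c η) : 0 < ν J := by
  rcases J with _ | _ | J
  · exact h.zero.pos
  · exact h.zero.pos'
  · exact (h.pos (J + 1) (by omega) (by omega)).pos'

end Vale.Agent.P144Z.ILB
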